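import Vale.Agent.Results.P309.Envelope

/-! P309: all the results on memory bounded noiseless Gaussian linear regression in one statement,
for one single model (the definitions of `Vale.Agent.Lib.P309.Env`). -/

open MeasureTheory ProbabilityTheory
open scoped ENNReal
open Vale.Agent.Lib.P309.Env

namespace Vale.Agent.Results.P309.AAllResults

/-- Memory and sample region for noiseless Gaussian linear regression.
Part 1: the model is non degenerate (the state laws are probability measures).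
Part 2: every learner with `M` bits has success probability at most `2^(M+d) ε^(d-1)`, whatever
the horizon.
Part 3: hence if `M ≤ c d^2` and `ε ≤ 2^(-(2cd+4))` no horizon suffices.
Part 4: if `2^(M+d) ε^(d-1) < 2/3` no horizon suffices.
Part 5: with fewer than `d` samples and `ε ≤ 1/(30 d)` the success probability is at most `13/20`,
whatever the memory, so fewer than `d` samples never suffice.
Part 6: a quantized Kaczmarz learner with `M ≥ d log2 (17 d^2 / ε)` bits succeeds with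
any horizon `T ≥ 2 d ln (30 / ε^2)`. -/
theorem result :
    (∀ (d M : ℕ) (L : Learner d M) (s : Sph d) (T : ℕ) (x : Fin T → Vec d),
      IsProbabilityMeasure (L.stateLaw s T x)) ∧
    (∀ (d M T : ℕ) (L : Learner d M) (ε : ℝ), 2 ≤ d → 0 < ε → ε ≤ 1 →
      L.successProb T ε ≤ ENNReal.ofReal (2 ^ (M + d) * ε ^ (d - 1))) ∧
    (∀ (d M T : ℕ) (c ε : ℝ), 2 ≤ d → 0 < c → (M : ℝ) ≤ c * (d : ℝ) ^ 2 → 0 < ε →
      ε ≤ (2 : ℝ) ^ (-(2 * c * d + 4)) → ¬ Achievable d M T ε) ∧
    (∀ (d M T : ℕ) (ε : ℝ), 2 ≤ d → 0 < ε → ε ≤ 1 →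
      (2 : ℝ) ^ (M + d) * ε ^ (d - 1) < 2 / 3 → ¬ Achievable d M T ε) ∧
    (∀ (d M T : ℕ) (ε : ℝ), 2 ≤ d → 0 < ε → ε ≤ 1 / (30 * (d : ℝ)) → T < d →
      (∀ L : Learner d M, L.successProb T ε ≤ 13 / 20) ∧ ¬ Achievable d M T ε) ∧
    (∀ (d M T : ℕ) (ε : ℝ), 2 ≤ d → 0 < ε → ε ≤ 1 →
      (d : ℝ) * Real.logb 2 (17 * (d : ℝ) ^ 2 / ε) ≤ M →
      2 * (d : ℝ) * Real.log (30 / ε ^ 2) ≤ T → Achievable d M T ε) := by
  obtain ⟨ha, hb, hc⟩ := Vale.Agent.Results.P309.Envelope.result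
  refine ⟨fun d M L s T x => L.stateLaw_prob s T x, ?_, ?_, ha,
    fun d M T ε hd h0 h1 hT =>
      ⟨fun L => L.successProb_le_of_lt (by omega) hT h0 h1, hb d M T ε hd h0 h1 hT⟩, hc⟩
  · intro d M T L ε hd h0 h1
    refine (L.successProb_le (by omega) T h0 h1).trans (le_of_eq ?_)
    have : (2 : ℝ≥0∞) ^ M = ENNReal.ofReal (2 ^ M) := by
      rw [ENNReal.ofReal_pow (by norm_num)]; simp
    rw [this, ← ENNReal.ofReal_mul (by positivity)]
    congr 1
    ring
  · intro d M T c ε hd hc0 hM h0 hε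
    have hdR : (2 : ℝ) ≤ d := by exact_mod_cast hd
    have he0 : (2 : ℝ) ^ (-(2 * c * d + 4)) ≤ 1 := by
      apply Real.rpow_le_one_of_one_le_of_nonpos (by norm_num)
      nlinarith
    have h1 : ε ≤ 1 := hε.trans he0
    refine ha d M T ε hd h0 h1 ?_
    have key : (2 : ℝ) ^ (M + d) * ε ^ (d - 1) ≤ 1 / 4 := by
      have e1 : ε ^ (d - 1) ≤ ((2 : ℝ) ^ (-(2 * c * d + 4))) ^ (d - 1) :=
        pow_le_pow_left₀ h0.le hε _
      have e2 : ((2 : ℝ) ^ (-(2 * c * d + 4))) ^ (d - 1)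
          = (2 : ℝ) ^ (-(2 * c * d + 4) * ((d : ℝ) - 1)) := by
        rw [← Real.rpow_natCast, ← Real.rpow_mul (by norm_num)]
        congr 1
        rw [Nat.cast_sub (by omega)]
        simp
      have e3 : (2 : ℝ) ^ (M + d) = (2 : ℝ) ^ ((M : ℝ) + d) := by
        rw [← Real.rpow_natCast]; push_cast; rfl
      calc (2 : ℝ) ^ (M + d) * ε ^ (d - 1)
          ≤ (2 : ℝ) ^ ((M : ℝ) + d) * (2 : ℝ) ^ (-(2 * c * d + 4) * ((d : ℝ) - 1)) := by
            rw [e3, ← e2]; gcongr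
        _ = (2 : ℝ) ^ ((M : ℝ) + d + -(2 * c * d + 4) * ((d : ℝ) - 1)) := by
            rw [← Real.rpow_add (by norm_num)]
        _ ≤ (2 : ℝ) ^ (-2 : ℝ) := by
            apply Real.rpow_le_rpow_of_exponent_le (by norm_num)
            nlinarith [mul_nonneg hc0.le (mul_nonneg (by linarith : (0:ℝ) ≤ d)
              (by linarith : (0:ℝ) ≤ (d:ℝ) - 2))]
        _ = 1 / 4 := by
            rw [Real.rpow_neg (by norm_num)]; norm_num
    linarith

end Vale.Agent.Results.P309.AAllResults
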